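import Mathlib

namespace Vale.Agent.Lib.P015

/-- Homogeneous Dirichlet approximation for a linear form with unit coefficient vector. -/
theorem exists_small_form (n1 n2 : ℝ) (hn : n1 ^ 2 + n2 ^ 2 = 1) {ε : ℝ} (hε : 0 < ε) :
    ∃ k l : ℤ, (k ≠ 0 ∨ l ≠ 0) ∧ |(k : ℝ) * n1 + l * n2| ≤ ε := by
  by_cases h1 : n1 = 0
  · refine ⟨1, 0, Or.inl one_ne_zero, ?_⟩
    simp [h1, hε.le]
  · obtain ⟨m, hm⟩ := exists_nat_gt (1 / ε)
    have hmpos' : (0 : ℝ) < m := lt_trans (by positivity) hm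
    have hmpos : 0 < m := by exact_mod_cast hmpos'
    obtain ⟨j, k, hk0, _, hjk⟩ := Real.exists_int_int_abs_mul_sub_le (n2 / n1) hmpos
    refine ⟨-j, k, Or.inr hk0.ne', ?_⟩
    have hn1 : |n1| ≤ 1 := by
      rw [abs_le]
      constructor <;> nlinarith [sq_nonneg n2]
    have hrew : (((-j : ℤ) : ℝ)) * n1 + k * n2 = n1 * (k * (n2 / n1) - j) := by
      push_cast
      field_simp
      ring
    rw [hrew, abs_mul]
    have h2 : (1 : ℝ) / (m + 1) ≤ ε := by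
      rw [div_le_iff₀ (by positivity)]
      rw [div_lt_iff₀ hε] at hm
      nlinarith
    calc |n1| * |(k : ℝ) * (n2 / n1) - j| ≤ 1 * (1 / ((m : ℝ) + 1)) := by gcongr
      _ ≤ ε := by rw [one_mul]; exact h2

/-- Points of the congruence class close to the line: rational direction. -/
theorem exists_near_rational (n1 n2 : ℝ) (hn : n1 ^ 2 + n2 ^ 2 = 1) (u v : ℤ)
    (huv : IsCoprime u v) (hpar : n1 * v = n2 * u) (M : ℕ) (X r : ℤ)
    (hcop : IsCoprime (v - u * X) (M : ℤ)) (h0 : ℝ) :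
    ∃ a b : ℤ, (M : ℤ) ∣ a + X * b - r ∧ |(a : ℝ) * n1 + b * n2 - h0| ≤ 1 / 2 := by
  have hc1 : IsCoprime (v - u * X) u := by
    have := IsCoprime.add_mul_left_left huv.symm (-X)
    have h2 : v + u * -X = v - u * X := by ring
    rwa [h2] at this
  obtain ⟨β, μ, hβμ⟩ := IsCoprime.mul_right hc1 hcop
  set τ : ℝ := n1 * u + n2 * v with hτ
  have hτ2 : τ ^ 2 = (u : ℝ) ^ 2 + (v : ℝ) ^ 2 := by
    have h3 : τ ^ 2 = (n1 ^ 2 + n2 ^ 2) * ((u : ℝ) ^ 2 + (v : ℝ) ^ 2) - (n1 * v - n2 * u) ^ 2 := by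
      rw [hτ]; ring
    rw [h3, hn, hpar]; ring
  have huv1 : (1 : ℤ) ≤ u ^ 2 + v ^ 2 := by
    rcases huv.ne_zero_or_ne_zero with h | h
    · have := sq_pos_of_ne_zero h
      nlinarith [sq_nonneg v]
    · have := sq_pos_of_ne_zero h
      nlinarith [sq_nonneg u]
  have hτ1 : (1 : ℝ) ≤ τ ^ 2 := by
    rw [hτ2]
    exact_mod_cast huv1
  have habsτ : 1 ≤ |τ| := by
    rw [← one_le_sq_iff_one_le_abs]
    exact hτ1
  have hn1 : n1 * τ = u := by
    rw [hτ]
    linear_combination (u : ℝ) * hn + n2 * hpar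
  have hn2 : n2 * τ = v := by
    rw [hτ]
    linear_combination (v : ℝ) * hn - n1 * hpar
  set C : ℝ := r * n1 - h0 with hC
  set t : ℤ := round (-(C * τ)) with ht
  refine ⟨r - X * (t * β) + M * (t * μ), t * β, ⟨t * μ, by ring⟩, ?_⟩
  set E : ℝ := ((r - X * (t * β) + M * (t * μ) : ℤ) : ℝ) * n1 + ((t * β : ℤ) : ℝ) * n2 - h0
    with hE
  have hEτ : E * τ = C * τ + t := by
    have h5 : ((β * (v - u * X) + μ * (u * M) : ℤ) : ℝ) = 1 := by
      rw [hβμ]; norm_num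
    push_cast at h5
    rw [hE, hC]
    push_cast
    have h6 : (((r : ℝ) - X * (t * β) + M * (t * μ)) * n1 + (t * β) * n2 - h0) * τ
        = (r * n1 - h0) * τ + (-(X : ℝ) * (t * β) + M * (t * μ)) * (n1 * τ)
          + (t * β) * (n2 * τ) := by ring
    rw [h6, hn1, hn2]
    linear_combination (t : ℝ) * h5
  have h7 : |E * τ| ≤ 1 / 2 := by
    rw [hEτ]
    have := abs_sub_round (-(C * τ))
    rw [← ht] at this
    have h8 : C * τ + t = -(-(C * τ) - t) := by ring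
    rw [h8, abs_neg]
    exact this
  rw [abs_mul] at h7
  nlinarith [abs_nonneg E, abs_nonneg τ]

/-- Points of the congruence class close to the line: irrational direction. -/
theorem exists_near_irrational (n1 n2 : ℝ) (hn : n1 ^ 2 + n2 ^ 2 = 1)
    (hirr : ¬ ∃ k l : ℤ, (k ≠ 0 ∨ l ≠ 0) ∧ n1 * l = n2 * k) (M : ℕ) (hM : 0 < M)
    (X r : ℤ) (h0 : ℝ) :
    ∃ a b : ℤ, (M : ℤ) ∣ a + X * b - r ∧ |(a : ℝ) * n1 + b * n2 - h0| ≤ 1 / 2 := by
  have hMr : (0 : ℝ) < M := by exact_mod_cast hM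
  obtain ⟨k, l, hkl, hsmall⟩ := exists_small_form n1 n2 hn (ε := 1 / M) (by positivity)
  set δ0 : ℝ := (k : ℝ) * n1 + l * n2 with hδ0
  have hδ0ne : δ0 ≠ 0 := by
    intro h
    apply hirr
    refine ⟨l, -k, ?_, ?_⟩
    · rcases hkl with h' | h'
      · exact Or.inr (neg_ne_zero.2 h')
      · exact Or.inl h'
    · push_cast
      rw [hδ0] at h
      linear_combination -h
  set δ : ℝ := M * δ0 with hδ
  have hδne : δ ≠ 0 := mul_ne_zero hMr.ne' hδ0ne
  have hδle : |δ| ≤ 1 := by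
    rw [hδ, abs_mul, abs_of_pos hMr]
    calc (M : ℝ) * |δ0| ≤ M * (1 / M) := by gcongr
      _ = 1 := by field_simp
  set C : ℝ := r * n1 - h0 with hC
  set t : ℤ := round (-(C / δ)) with ht
  refine ⟨r + t * M * k, t * M * l, ⟨t * k + X * t * l, by ring⟩, ?_⟩
  have hE : ((r + t * M * k : ℤ) : ℝ) * n1 + ((t * M * l : ℤ) : ℝ) * n2 - h0
      = δ * (C / δ + t) := by
    push_cast
    have : δ * (C / δ + t) = C + t * δ := by field_simp
    rw [this, hC, hδ, hδ0]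
    ring
  rw [hE, abs_mul]
  have h1 : |C / δ + t| ≤ 1 / 2 := by
    have := abs_sub_round (-(C / δ))
    rw [← ht] at this
    have h8 : C / δ + t = -(-(C / δ) - t) := by ring
    rw [h8, abs_neg]
    exact this
  calc |δ| * |C / δ + t| ≤ 1 * (1 / 2) := by gcongr
    _ = 1 / 2 := by norm_num

end Vale.Agent.Lib.P015
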