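import Mathlib

namespace Vale.Agent.Lib.P015

/-- A supply of pairwise distinct primes congruent to `1` mod `4` above a bound, indexed by
pairs of integers. -/
theorem exists_prime_family (Q : ℕ) :
    ∃ P : ℤ × ℤ → ℕ, Function.Injective P ∧ ∀ x, (P x).Prime ∧ P x % 4 = 1 ∧ Q < P x := by
  have hS : {p : ℕ | p.Prime ∧ p ≡ 1 [MOD 4]}.Infinite :=
    Nat.infinite_setOfPred_prime_modEq_one (by norm_num)
  have hS' : ({p : ℕ | p.Prime ∧ p ≡ 1 [MOD 4]} \ Set.Iic Q).Infinite :=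
    hS.sdiff (Set.finite_Iic Q)
  refine ⟨fun x => (hS'.natEmbedding _ (Encodable.encode x) : ℕ), ?_, ?_⟩
  · intro x y hxy
    have := (hS'.natEmbedding _).injective (Subtype.ext hxy)
    exact Encodable.encode_injective this
  · intro x
    have hmem := (hS'.natEmbedding _ (Encodable.encode x)).2
    obtain ⟨⟨h1, h2⟩, h3⟩ := hmem
    refine ⟨h1, ?_, ?_⟩
    · exact h2
    · simpa using h3

/-- The arithmetic data behind a composite box: distinct split primes `P (i, j)`, their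
product `M`, a square root `X` of `-1` modulo `M` and a residue `r`. -/
theorem exists_arith_data (N Q : ℕ) :
    ∃ (P : ℤ × ℤ → ℕ) (M : ℕ) (X r : ℤ), 0 < M ∧
      (∀ q : ℕ, q.Prime → q ∣ M → Q < q ∧ (q : ℤ) ∣ X ^ 2 + 1) ∧
      (∀ i j : ℤ, |i| ≤ N → |j| ≤ N → (P (i, j)).Prime ∧ P (i, j) ∣ M ∧
          (P (i, j) : ℤ) ∣ r + i + X * j) := by
  obtain ⟨P, hinj, hP⟩ := exists_prime_family Q
  set B : Finset (ℤ × ℤ) := Finset.Icc (-(N:ℤ)) N ×ˢ Finset.Icc (-(N:ℤ)) N with hB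
  set M : ℕ := ∏ x ∈ B, P x with hM
  have hcop : ∀ x y, x ≠ y → Nat.Coprime (P x) (P y) := fun x y hxy =>
    (Nat.coprime_primes (hP x).1 (hP y).1).2 (fun h => hxy (hinj h))
  have hMpos : 0 < M := Finset.prod_pos (fun x _ => (hP x).1.pos)
  have hsq : IsSquare (-1 : ZMod M) := by
    have key : ∀ s : Finset (ℤ × ℤ), IsSquare (-1 : ZMod (∏ x ∈ s, P x)) := by
      intro s
      induction s using Finset.induction_on with
      | empty =>
        rw [Finset.prod_empty]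
        exact ⟨0, Subsingleton.elim _ _⟩
      | insert a s ha ih =>
        rw [Finset.prod_insert ha]
        have : Fact (P a).Prime := ⟨(hP a).1⟩
        refine ZMod.isSquare_neg_one_mul ?_ ?_ ih
        · exact Nat.Coprime.prod_right (fun x hx => hcop a x (by rintro rfl; exact ha hx))
        · exact ZMod.exists_sq_eq_neg_one_iff.mpr (by have := (hP a).2.1; omega)
    exact key B
  obtain ⟨y, hy⟩ := hsq
  have : NeZero M := ⟨hMpos.ne'⟩
  have hX : ((M : ℕ) : ℤ) ∣ ((y.val : ℤ)) ^ 2 + 1 := by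
    rw [← ZMod.intCast_zmod_eq_zero_iff_dvd]
    push_cast
    rw [ZMod.natCast_zmod_val, sq, ← hy]
    ring
  set X : ℤ := (y.val : ℤ) with hXdef
  obtain ⟨r, hr⟩ := Nat.chineseRemainderOfFinset
    (fun x : ℤ × ℤ => ((-(x.1 + X * x.2)) % (P x : ℤ)).toNat) P B
    (fun x _ => (hP x).1.ne_zero) (fun x _ y _ hxy => hcop x y hxy)
  refine ⟨P, M, X, (r : ℤ), hMpos, ?_, ?_⟩
  · intro q hq hqM
    have hq' : Prime q := Nat.prime_iff.mp hq
    obtain ⟨x, hx, hqx⟩ := (Prime.dvd_finsetProd_iff hq' _).1 hqM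
    have hqeq : q = P x := (Nat.prime_dvd_prime_iff_eq hq (hP x).1).1 hqx
    refine ⟨by rw [hqeq]; exact (hP x).2.2, ?_⟩
    exact (Int.natCast_dvd_natCast.2 hqM).trans hX
  · intro i j hi hj
    have hx : (i, j) ∈ B := by
      rw [hB, Finset.mem_product, Finset.mem_Icc, Finset.mem_Icc]
      exact ⟨abs_le.1 hi, abs_le.1 hj⟩
    refine ⟨(hP (i, j)).1, Finset.dvd_prod_of_mem _ hx, ?_⟩
    have h1 := hr (i, j) hx
    have hPpos : (0 : ℤ) < (P (i, j) : ℤ) := by exact_mod_cast (hP (i, j)).1.pos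
    have h2 : ((r : ℤ)) ≡ (((-(i + X * j)) % (P (i, j) : ℤ)).toNat : ℤ) [ZMOD (P (i, j) : ℤ)] :=
      Int.natCast_modEq_iff.2 h1
    rw [Int.toNat_of_nonneg (Int.emod_nonneg _ hPpos.ne')] at h2
    have h3 : (r : ℤ) ≡ -(i + X * j) [ZMOD (P (i, j) : ℤ)] := h2.trans (Int.mod_modEq _ _)
    have h4 := h3.symm.dvd
    have : (r : ℤ) + i + X * j = (r : ℤ) - -(i + X * j) := by ring
    rw [this]
    exact h4

end Vale.Agent.Lib.P015
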