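import Mathlib

namespace Vale.Agent.Lib.P015

open GaussianInt

/-- If a rational prime `p` divides the norm of a Gaussian prime `z`, then the norm of `z`
is at most `p ^ 2`. -/
theorem norm_le_sq_of_prime_of_dvd {z : GaussianInt} (hz : Prime z) {p : ℕ} (hp : p.Prime)
    (hd : (p : ℤ) ∣ z.norm) : z.norm ≤ (p : ℤ) ^ 2 := by
  have hp0 : (p : GaussianInt) ≠ 0 := by
    exact_mod_cast hp.ne_zero
  have hpu : ¬ IsUnit (p : GaussianInt) := by
    rw [← Zsqrtd.norm_eq_one_iff, Zsqrtd.norm_natCast, Int.natAbs_mul, Int.natAbs_natCast]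
    intro h
    have := Nat.eq_one_of_mul_eq_one_left h
    exact hp.one_lt.ne' this
  obtain ⟨q, hq, hqp⟩ := WfDvdMonoid.exists_irreducible_factor hpu hp0
  have hq' : Prime q := hq.prime
  have h1 : q ∣ z * star z := by
    have h2 : (p : GaussianInt) ∣ ((z.norm : ℤ) : GaussianInt) := by
      obtain ⟨c, hc⟩ := hd
      exact ⟨(c : GaussianInt), by rw [hc]; push_cast; ring⟩
    rw [Zsqrtd.norm_eq_mul_conj] at h2
    exact hqp.trans h2
  have hzp : z ∣ (p : GaussianInt) := by
    rcases hq'.dvd_or_dvd h1 with h | h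
    · have h3 : Associated q z := hq.associated_of_dvd hz.irreducible h
      exact h3.symm.dvd.trans hqp
    · have hsz : Prime (star z) := by
        have := (MulEquiv.prime_iff (starRingAut : GaussianInt ≃+* GaussianInt).toMulEquiv
          (p := z)).2 hz
        simpa using this
      have h3 : Associated q (star z) := hq.associated_of_dvd hsz.irreducible h
      have h4 : star z ∣ (p : GaussianInt) := h3.symm.dvd.trans hqp
      have h5 : star z ∣ star (p : GaussianInt) := by
        have : star (p : GaussianInt) = (p : GaussianInt) := by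
          simp
        rw [this]; exact h4
      have h7 := map_dvd (starRingAut : GaussianInt ≃+* GaussianInt) h5
      simpa using h7
  obtain ⟨c, hc⟩ := hzp
  have h6 : (p : ℤ) * p = z.norm * c.norm := by
    rw [← Zsqrtd.norm_mul, ← hc, Zsqrtd.norm_natCast]
  have hc0 : c ≠ 0 := by
    rintro rfl
    rw [mul_zero] at hc
    exact hp0 hc
  have hcpos : 0 < c.norm := GaussianInt.norm_pos.2 hc0
  have hzn : 0 ≤ z.norm := GaussianInt.norm_nonneg z
  nlinarith

end Vale.Agent.Lib.P015
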