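import Mathlib
import Vale.Agent.Lib.P015.NotPrime
import Vale.Agent.Lib.P015.Arith
import Vale.Agent.Lib.P015.Approx

namespace Vale.Agent.Lib.P015

/-- Arithmetic data together with a point of the congruence class near the line. -/
theorem exists_data_near (n1 n2 : ℝ) (hn : n1 ^ 2 + n2 ^ 2 = 1) (h0 : ℝ) (N : ℕ) :
    ∃ (P : ℤ × ℤ → ℕ) (M : ℕ) (X r : ℤ), 0 < M ∧
      (∀ i j : ℤ, |i| ≤ N → |j| ≤ N → (P (i, j)).Prime ∧ P (i, j) ∣ M ∧
          (P (i, j) : ℤ) ∣ X ^ 2 + 1 ∧ (P (i, j) : ℤ) ∣ r + i + X * j) ∧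
      ∃ a1 b1 : ℤ, (M : ℤ) ∣ a1 + X * b1 - r ∧ |(a1 : ℝ) * n1 + b1 * n2 - h0| ≤ 1 / 2 := by
  by_cases hR : ∃ k l : ℤ, (k ≠ 0 ∨ l ≠ 0) ∧ n1 * l = n2 * k
  · obtain ⟨k, l, hkl, hpar⟩ := hR
    have hg : 0 < Int.gcd k l := Int.gcd_pos_iff.2 hkl
    obtain ⟨u, v, huv, hk, hl⟩ := Int.exists_gcd_one hg
    have huv' : IsCoprime u v := Int.isCoprime_iff_gcd_eq_one.2 huv
    have hgr : ((Int.gcd k l : ℤ) : ℝ) ≠ 0 := by exact_mod_cast hg.ne'
    have hkr : (k : ℝ) = u * ((Int.gcd k l : ℤ) : ℝ) := by exact_mod_cast hk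
    have hlr : (l : ℝ) = v * ((Int.gcd k l : ℤ) : ℝ) := by exact_mod_cast hl
    have hpar' : n1 * v = n2 * u := by
      have h1 : (n1 * v - n2 * u) * ((Int.gcd k l : ℤ) : ℝ) = 0 := by
        have : (n1 * v - n2 * u) * ((Int.gcd k l : ℤ) : ℝ)
            = n1 * (v * ((Int.gcd k l : ℤ) : ℝ)) - n2 * (u * ((Int.gcd k l : ℤ) : ℝ)) := by ring
        rw [this, ← hkr, ← hlr, hpar, sub_self]
      rcases mul_eq_zero.1 h1 with h | h
      · linarith
      · exact absurd h hgr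
    have hQpos : 0 < (u ^ 2 + v ^ 2).natAbs := by
      rw [Int.natAbs_pos]
      rcases huv'.ne_zero_or_ne_zero with h | h
      · have := sq_pos_of_ne_zero h
        nlinarith [sq_nonneg v]
      · have := sq_pos_of_ne_zero h
        nlinarith [sq_nonneg u]
    obtain ⟨P, M, X, r, hM, hq, hP⟩ := exists_arith_data N (u ^ 2 + v ^ 2).natAbs
    have hcop : IsCoprime (v - u * X) (M : ℤ) := by
      rw [Int.isCoprime_iff_gcd_eq_one]
      have hc : Nat.Coprime M (v - u * X).natAbs := by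
        apply Nat.coprime_of_dvd
        intro q hq1 hq2 hq3
        obtain ⟨hQq, hqX⟩ := hq q hq1 hq2
        have h1 : (q : ℤ) ∣ v - u * X := Int.natCast_dvd.2 hq3
        have h2 : (q : ℤ) ∣ u ^ 2 + v ^ 2 := by
          have : u ^ 2 + v ^ 2 = (v - u * X) * (v + u * X) + u ^ 2 * (X ^ 2 + 1) := by ring
          rw [this]
          exact dvd_add (h1.mul_right _) (hqX.mul_left _)
        have h3 : q ∣ (u ^ 2 + v ^ 2).natAbs := Int.natCast_dvd.1 h2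
        have := Nat.le_of_dvd hQpos h3
        omega
      have h5 : Int.gcd (v - u * X) (M : ℤ) = Nat.gcd (v - u * X).natAbs M := by
        simp [Int.gcd]
      rw [h5]
      exact hc.symm
    obtain ⟨a1, b1, h1, h2⟩ := exists_near_rational n1 n2 hn u v huv' hpar' M X r hcop h0
    refine ⟨P, M, X, r, hM, fun i j hi hj => ?_, a1, b1, h1, h2⟩
    obtain ⟨hp, hpM, hpr⟩ := hP i j hi hj
    exact ⟨hp, hpM, (hq _ hp hpM).2, hpr⟩
  · obtain ⟨P, M, X, r, hM, hq, hP⟩ := exists_arith_data N 0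
    obtain ⟨a1, b1, h1, h2⟩ := exists_near_irrational n1 n2 hn hR M hM X r h0
    refine ⟨P, M, X, r, hM, fun i j hi hj => ?_, a1, b1, h1, h2⟩
    obtain ⟨hp, hpM, hpr⟩ := hP i j hi hj
    exact ⟨hp, hpM, (hq _ hp hpM).2, hpr⟩

theorem norm_mk (A B : ℤ) : (⟨A, B⟩ : GaussianInt).norm = A ^ 2 + B ^ 2 := by
  rw [Zsqrtd.norm_def]
  ring

/-- A Gaussian integer whose norm is divisible by a prime `p ≤ M` but which is farther than
`M + 1` from the origin is not a Gaussian prime. -/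
theorem not_prime_of (A B X : ℤ) (p M : ℕ) (hp : p.Prime) (hpM : p ≤ M)
    (hpX : (p : ℤ) ∣ X ^ 2 + 1) (hd : (p : ℤ) ∣ A + X * B) (n1 n2 : ℝ)
    (hn : n1 ^ 2 + n2 ^ 2 = 1) (hs : (M : ℝ) + 1 ≤ (A : ℝ) * n2 - B * n1) :
    ¬ Prime (⟨A, B⟩ : GaussianInt) := by
  intro hprime
  have hdvd2 : (p : ℤ) ∣ (⟨A, B⟩ : GaussianInt).norm := by
    have : (⟨A, B⟩ : GaussianInt).norm = (A + X * B) * (A - X * B) + (X ^ 2 + 1) * B ^ 2 := by
      rw [norm_mk]
      ring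
    rw [this]
    exact dvd_add (hd.mul_right _) (hpX.mul_right _)
  have hle := norm_le_sq_of_prime_of_dvd hprime hp hdvd2
  rw [norm_mk] at hle
  have hle' : (A : ℝ) ^ 2 + (B : ℝ) ^ 2 ≤ (p : ℝ) ^ 2 := by exact_mod_cast hle
  have hCS : ((A : ℝ) * n2 - B * n1) ^ 2 ≤ (A : ℝ) ^ 2 + (B : ℝ) ^ 2 := by
    nlinarith [sq_nonneg ((A : ℝ) * n1 + B * n2)]
  have hpM2 : (p : ℝ) ≤ M := by exact_mod_cast hpM
  have hp0 : (0 : ℝ) ≤ (p : ℝ) := Nat.cast_nonneg _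
  have hp2 : (p : ℝ) ^ 2 ≤ (M : ℝ) ^ 2 := by nlinarith
  have hM0 : (0 : ℝ) ≤ (M : ℝ) := Nat.cast_nonneg _
  have hS2 : ((M : ℝ) + 1) ^ 2 ≤ ((A : ℝ) * n2 - B * n1) ^ 2 := by nlinarith
  nlinarith

/-- Near every line, arbitrarily far along it, there is a box of Gaussian integers
containing no Gaussian prime. -/
theorem exists_block (n1 n2 : ℝ) (hn : n1 ^ 2 + n2 ^ 2 = 1) (h0 s0 T : ℝ) (N : ℕ) :
    ∃ a b : ℤ, |(a : ℝ) * n1 + b * n2 - h0| ≤ 1 ∧ T ≤ (a : ℝ) * n2 - b * n1 - s0 ∧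
      ∀ i j : ℤ, |i| ≤ N → |j| ≤ N → ¬ Prime (⟨a + i, b + j⟩ : GaussianInt) := by
  obtain ⟨P, M, X, r, hM, hP, a1, b1, hdiv, hnear⟩ := exists_data_near n1 n2 hn h0 N
  have hMr : (1 : ℝ) ≤ M := by exact_mod_cast hM
  have hn1abs : |n1| ≤ 1 := by
    rw [abs_le]
    constructor <;> nlinarith [sq_nonneg n2]
  have hn2abs : |n2| ≤ 1 := by
    rw [abs_le]
    constructor <;> nlinarith [sq_nonneg n1]
  set s1 : ℝ := a1 * n2 - b1 * n1 - s0 with hs1
  set T' : ℝ := |T| + 2 * N + |s0| + M + 1 with hT'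
  obtain ⟨kmax, hkmax⟩ := exists_nat_gt (2 * |T' - s1|)
  have hkpos : (0 : ℝ) < kmax := lt_of_le_of_lt (by positivity) hkmax
  have hk1 : (1 : ℝ) ≤ kmax := by
    have : 0 < kmax := by exact_mod_cast hkpos
    exact_mod_cast this
  obtain ⟨k, l, hkl, hsmall⟩ :=
    exists_small_form n1 n2 hn (ε := 1 / (2 * M * kmax)) (by positivity)
  set δ0 : ℝ := (k : ℝ) * n1 + l * n2 with hδ0
  set σ : ℝ := (k : ℝ) * n2 - l * n1 with hσ
  have hsum : σ ^ 2 + δ0 ^ 2 = (k : ℝ) ^ 2 + (l : ℝ) ^ 2 := by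
    rw [hσ, hδ0]
    linear_combination ((k : ℝ) ^ 2 + (l : ℝ) ^ 2) * hn
  have hkl1 : (1 : ℝ) ≤ (k : ℝ) ^ 2 + (l : ℝ) ^ 2 := by
    have hz : (1 : ℤ) ≤ k ^ 2 + l ^ 2 := by
      rcases hkl with h | h
      · have := sq_pos_of_ne_zero h
        nlinarith [sq_nonneg l]
      · have := sq_pos_of_ne_zero h
        nlinarith [sq_nonneg k]
    exact_mod_cast hz
  have hδ0le : |δ0| ≤ 1 / 2 := by
    refine hsmall.trans ?_
    rw [div_le_div_iff₀ (by positivity) (by norm_num)]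
    nlinarith
  have hσabs : 1 / 2 ≤ |σ| := by
    have h1 : δ0 ^ 2 ≤ 1 / 4 := by
      have := abs_le.1 hδ0le
      nlinarith
    by_contra hcon
    rw [not_le] at hcon
    have h2 : σ ^ 2 < 1 / 4 := by
      have := abs_nonneg σ
      have h3 : |σ| ^ 2 < 1 / 4 := by nlinarith
      rwa [sq_abs] at h3
    nlinarith
  set t : ℤ := if 0 ≤ σ then (kmax : ℤ) else -(kmax : ℤ) with ht
  have htσ : (t : ℝ) * σ = kmax * |σ| := by
    by_cases h : 0 ≤ σ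
    · simp [ht, h, abs_of_nonneg h]
    · simp [ht, h, abs_of_neg (not_le.1 h)]
  have htabs : |(t : ℝ)| = kmax := by
    by_cases h : 0 ≤ σ
    · simp [ht, h]
    · simp [ht, h]
  have hsT' : T' ≤ s1 + M * ((t : ℝ) * σ) := by
    rw [htσ]
    have h6a : (kmax : ℝ) * (1 / 2) ≤ kmax * |σ| := mul_le_mul_of_nonneg_left hσabs hkpos.le
    have h6b : 1 * ((kmax : ℝ) * |σ|) ≤ M * (kmax * |σ|) :=
      mul_le_mul_of_nonneg_right hMr (by positivity)
    have h8 : T' - s1 ≤ |T' - s1| := le_abs_self _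
    linarith
  have hsrew : ((a1 + t * M * k : ℤ) : ℝ) * n2 - ((b1 + t * M * l : ℤ) : ℝ) * n1 - s0
      = s1 + M * ((t : ℝ) * σ) := by
    push_cast
    rw [hs1, hσ]
    ring
  refine ⟨a1 + t * M * k, b1 + t * M * l, ?_, ?_, ?_⟩
  · have hrew : ((a1 + t * M * k : ℤ) : ℝ) * n1 + ((b1 + t * M * l : ℤ) : ℝ) * n2 - h0
        = ((a1 : ℝ) * n1 + b1 * n2 - h0) + t * M * δ0 := by
      push_cast
      rw [hδ0]
      ring
    rw [hrew]
    have h5 : |(t : ℝ) * M * δ0| ≤ 1 / 2 := by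
      rw [abs_mul, abs_mul, htabs, abs_of_pos (lt_of_lt_of_le one_pos hMr)]
      calc (kmax : ℝ) * M * |δ0| ≤ kmax * M * (1 / (2 * M * kmax)) := by gcongr
        _ = 1 / 2 := by field_simp
    calc |((a1 : ℝ) * n1 + b1 * n2 - h0) + t * M * δ0|
        ≤ |(a1 : ℝ) * n1 + b1 * n2 - h0| + |(t : ℝ) * M * δ0| := abs_add_le _ _
      _ ≤ 1 / 2 + 1 / 2 := add_le_add hnear h5
      _ = 1 := by norm_num
  · rw [hsrew]
    have h7 : T ≤ T' := by
      rw [hT']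
      have h1 := le_abs_self T
      have h2 := abs_nonneg s0
      have h3 : (0 : ℝ) ≤ N := Nat.cast_nonneg N
      linarith
    linarith
  · intro i j hi hj
    obtain ⟨hp, hpM, hpX, hpr⟩ := hP i j hi hj
    have hpM' : (P (i, j) : ℤ) ∣ (M : ℤ) := Int.natCast_dvd_natCast.2 hpM
    obtain ⟨A, hA⟩ : ∃ A : ℤ, A = a1 + t * M * k + i := ⟨_, rfl⟩
    obtain ⟨B, hB⟩ : ∃ B : ℤ, B = b1 + t * M * l + j := ⟨_, rfl⟩
    rw [← hA, ← hB]
    have hdvd1 : (P (i, j) : ℤ) ∣ A + X * B := by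
      have : A + X * B
          = (a1 + X * b1 - r) + (r + i + X * j) + (M : ℤ) * (t * k + X * t * l) := by
        rw [hA, hB]
        ring
      rw [this]
      exact dvd_add (dvd_add (hpM'.trans hdiv) hpr) (hpM'.mul_right _)
    have hi' : |(i : ℝ)| ≤ N := by exact_mod_cast hi
    have hj' : |(j : ℝ)| ≤ N := by exact_mod_cast hj
    have hN0 : (0 : ℝ) ≤ (N : ℝ) := Nat.cast_nonneg N
    have h1 : |(i : ℝ) * n2| ≤ N := by
      rw [abs_mul]
      have := mul_le_mul hi' hn2abs (abs_nonneg _) hN0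
      rwa [mul_one] at this
    have h2 : |(j : ℝ) * n1| ≤ N := by
      rw [abs_mul]
      have := mul_le_mul hj' hn1abs (abs_nonneg _) hN0
      rwa [mul_one] at this
    have hs : (M : ℝ) + 1 ≤ (A : ℝ) * n2 - (B : ℝ) * n1 := by
      have hrew : (A : ℝ) * n2 - (B : ℝ) * n1
          = (((a1 + t * M * k : ℤ) : ℝ) * n2 - ((b1 + t * M * l : ℤ) : ℝ) * n1 - s0)
            + s0 + ((i : ℝ) * n2 - (j : ℝ) * n1) := by
        rw [hA, hB]
        push_cast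
        ring
      rw [hrew, hsrew]
      have h3 := (abs_le.1 h1).1
      have h4 := (abs_le.1 h2).2
      have h5 := neg_abs_le s0
      have h6 := abs_nonneg T
      rw [hT'] at hsT'
      linarith
    exact not_prime_of A B X (P (i, j)) M hp (Nat.le_of_dvd hM hpM) hpX hdvd1 n1 n2 hn hs

end Vale.Agent.Lib.P015
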