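import Mathlib
import Vale.Agent.Lib.P015.Block

namespace Vale.Agent.Lib.P015

/-- Core statement in real coordinates: a sequence of Gaussian primes that stays in a strip
and moves by bounded steps along the strip is not injective. -/
theorem core (n1 n2 : ℝ) (hn : n1 ^ 2 + n2 ^ 2 = 1) (h0 s0 K D : ℝ) (f : ℕ → GaussianInt)
    (hprime : ∀ n, Prime (f n))
    (hstrip : ∀ n, |((f n).re : ℝ) * n1 + ((f n).im : ℝ) * n2 - h0| ≤ K)
    (hstep : ∀ n, |(((f (n + 1)).re : ℝ) * n2 - ((f (n + 1)).im : ℝ) * n1 - s0)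
        - (((f n).re : ℝ) * n2 - ((f n).im : ℝ) * n1 - s0)| ≤ D) :
    ¬ Function.Injective f := by
  intro hinj
  have hD : 0 ≤ D := (abs_nonneg _).trans (hstep 0)
  have hK : 0 ≤ K := (abs_nonneg _).trans (hstrip 0)
  have hn1abs : |n1| ≤ 1 := by
    rw [abs_le]
    constructor <;> nlinarith [sq_nonneg n2]
  have hn2abs : |n2| ≤ 1 := by
    rw [abs_le]
    constructor <;> nlinarith [sq_nonneg n1]
  obtain ⟨N, hN⟩ := exists_nat_gt (K + D + 2)
  -- the two blocks
  obtain ⟨a, b, hab1, hab2, hab3⟩ := exists_block n1 n2 hn h0 s0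
    ((((f 0).re : ℝ) * n2 - ((f 0).im : ℝ) * n1 - s0) + D + 1) N
  have hn' : (-n1) ^ 2 + (-n2) ^ 2 = 1 := by rw [neg_sq, neg_sq]; exact hn
  obtain ⟨a', b', hab1', hab2', hab3'⟩ := exists_block (-n1) (-n2) hn' (-h0) (-s0)
    (-(((f 0).re : ℝ) * n2 - ((f 0).im : ℝ) * n1 - s0) + D + 1) N
  -- a prime in the strip is not close to a block centre
  have claimA : ∀ (c d : ℤ), |(c : ℝ) * n1 + d * n2 - h0| ≤ 1 →
      (∀ i j : ℤ, |i| ≤ N → |j| ≤ N → ¬ Prime (⟨c + i, d + j⟩ : GaussianInt)) →
      ∀ n, ¬ |(((f n).re : ℝ) * n2 - ((f n).im : ℝ) * n1 - s0)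
        - ((c : ℝ) * n2 - d * n1 - s0)| ≤ D := by
    intro c d hc hblock n hclose
    have hh := hstrip n
    set x : ℝ := ((f n).re : ℝ) - c with hx
    set y : ℝ := ((f n).im : ℝ) - d with hy
    have hΔs : |x * n2 - y * n1| ≤ D := by
      have : x * n2 - y * n1 = (((f n).re : ℝ) * n2 - ((f n).im : ℝ) * n1 - s0)
          - ((c : ℝ) * n2 - d * n1 - s0) := by rw [hx, hy]; ring
      rw [this]; exact hclose
    have hΔh : |x * n1 + y * n2| ≤ K + 1 := by
      have : x * n1 + y * n2 = (((f n).re : ℝ) * n1 + ((f n).im : ℝ) * n2 - h0)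
          - ((c : ℝ) * n1 + d * n2 - h0) := by rw [hx, hy]; ring
      rw [this]
      exact (abs_sub _ _).trans (add_le_add hh hc)
    have hxeq : x = (x * n2 - y * n1) * n2 + (x * n1 + y * n2) * n1 := by
      linear_combination (-x) * hn
    have hyeq : y = -(x * n2 - y * n1) * n1 + (x * n1 + y * n2) * n2 := by
      linear_combination (-y) * hn
    have hxle : |x| ≤ N := by
      rw [hxeq]
      have e1 : |(x * n2 - y * n1) * n2| ≤ D := by
        rw [abs_mul]
        have := mul_le_mul hΔs hn2abs (abs_nonneg _) hD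
        rwa [mul_one] at this
      have e2 : |(x * n1 + y * n2) * n1| ≤ K + 1 := by
        rw [abs_mul]
        have := mul_le_mul hΔh hn1abs (abs_nonneg _) (by linarith)
        rwa [mul_one] at this
      have := abs_add_le ((x * n2 - y * n1) * n2) ((x * n1 + y * n2) * n1)
      linarith
    have hyle : |y| ≤ N := by
      rw [hyeq]
      have e1 : |-(x * n2 - y * n1) * n1| ≤ D := by
        rw [abs_mul, abs_neg]
        have := mul_le_mul hΔs hn1abs (abs_nonneg _) hD
        rwa [mul_one] at this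
      have e2 : |(x * n1 + y * n2) * n2| ≤ K + 1 := by
        rw [abs_mul]
        have := mul_le_mul hΔh hn2abs (abs_nonneg _) (by linarith)
        rwa [mul_one] at this
      have := abs_add_le (-(x * n2 - y * n1) * n1) ((x * n1 + y * n2) * n2)
      linarith
    have hi : |(f n).re - c| ≤ (N : ℤ) := by
      have : |(((f n).re - c : ℤ) : ℝ)| ≤ ((N : ℤ) : ℝ) := by
        push_cast
        exact hxle
      exact_mod_cast this
    have hj : |(f n).im - d| ≤ (N : ℤ) := by
      have : |(((f n).im - d : ℤ) : ℝ)| ≤ ((N : ℤ) : ℝ) := by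
        push_cast
        exact hyle
      exact_mod_cast this
    apply hblock _ _ hi hj
    have hz : (⟨c + ((f n).re - c), d + ((f n).im - d)⟩ : GaussianInt) = f n := by
      apply Zsqrtd.ext
      · simp
      · simp
    rw [hz]
    exact hprime n
  -- the walk stays between the two blocks
  have claimB : ∀ n, (((f n).re : ℝ) * n2 - ((f n).im : ℝ) * n1 - s0)
      < ((a : ℝ) * n2 - b * n1 - s0) - D := by
    intro n
    induction n with
    | zero => linarith
    | succ n ih =>
      have h1 := abs_le.1 (hstep n)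
      have h2 := claimA a b hab1 hab3 (n + 1)
      rw [abs_le, not_and_or, not_le, not_le] at h2
      rcases h2 with h2 | h2
      · linarith
      · linarith
  have hA' : ∀ n, ¬ |(((f n).re : ℝ) * n2 - ((f n).im : ℝ) * n1 - s0)
        - ((a' : ℝ) * n2 - b' * n1 - s0)| ≤ D := by
    apply claimA a' b' _ hab3'
    have : (a' : ℝ) * n1 + b' * n2 - h0 = -((a' : ℝ) * -n1 + b' * -n2 - -h0) := by ring
    rw [this, abs_neg]
    exact hab1'
  have claimB' : ∀ n, ((a' : ℝ) * n2 - b' * n1 - s0) + D
      < (((f n).re : ℝ) * n2 - ((f n).im : ℝ) * n1 - s0) := by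
    intro n
    induction n with
    | zero => linarith
    | succ n ih =>
      have h1 := abs_le.1 (hstep n)
      have h2 := hA' (n + 1)
      rw [abs_le, not_and_or, not_le, not_le] at h2
      rcases h2 with h2 | h2
      · linarith
      · linarith
  -- hence all points lie in a finite set
  obtain ⟨R, hR⟩ := exists_nat_gt (|(a : ℝ) * n2 - b * n1 - s0| + |(a' : ℝ) * n2 - b' * n1 - s0|
    + D + |s0| + K + |h0|)
  have hfin : {z : GaussianInt | (z.re, z.im) ∈
      (Set.Icc (-(R : ℤ)) R) ×ˢ (Set.Icc (-(R : ℤ)) R)}.Finite := by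
    apply Set.Finite.preimage
    · intro z _ z' _ hzz'
      simp only [Prod.mk.injEq] at hzz'
      exact Zsqrtd.ext hzz'.1 hzz'.2
    · exact (Set.finite_Icc _ _).prod (Set.finite_Icc _ _)
  have hsub : Set.range f ⊆ {z : GaussianInt | (z.re, z.im) ∈
      (Set.Icc (-(R : ℤ)) R) ×ˢ (Set.Icc (-(R : ℤ)) R)} := by
    rintro z ⟨n, rfl⟩
    have hs1 := claimB n
    have hs2 := claimB' n
    have hh := abs_le.1 (hstrip n)
    set S : ℝ := ((f n).re : ℝ) * n2 - ((f n).im : ℝ) * n1 - s0 with hS
    set H : ℝ := ((f n).re : ℝ) * n1 + ((f n).im : ℝ) * n2 - h0 with hH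
    have hSabs : |S| ≤ |(a : ℝ) * n2 - b * n1 - s0| + |(a' : ℝ) * n2 - b' * n1 - s0| + D := by
      rw [abs_le]
      have e1 := le_abs_self ((a : ℝ) * n2 - b * n1 - s0)
      have e2 := neg_abs_le ((a' : ℝ) * n2 - b' * n1 - s0)
      have e3 := abs_nonneg ((a : ℝ) * n2 - b * n1 - s0)
      have e4 := abs_nonneg ((a' : ℝ) * n2 - b' * n1 - s0)
      constructor <;> linarith
    have hHabs : |H| ≤ K := hstrip n
    have hre : ((f n).re : ℝ) = (S + s0) * n2 + (H + h0) * n1 := by
      rw [hS, hH]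
      linear_combination (-((f n).re : ℝ)) * hn
    have him : ((f n).im : ℝ) = -(S + s0) * n1 + (H + h0) * n2 := by
      rw [hS, hH]
      linear_combination (-((f n).im : ℝ)) * hn
    have hSs : |S + s0| ≤ |S| + |s0| := abs_add_le _ _
    have hHh : |H + h0| ≤ |H| + |h0| := abs_add_le _ _
    have bre : |((f n).re : ℝ)| ≤ R := by
      rw [hre]
      have e1 : |(S + s0) * n2| ≤ |S + s0| := by
        rw [abs_mul]
        have := mul_le_mul (le_refl |S + s0|) hn2abs (abs_nonneg _) (abs_nonneg _)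
        rwa [mul_one] at this
      have e2 : |(H + h0) * n1| ≤ |H + h0| := by
        rw [abs_mul]
        have := mul_le_mul (le_refl |H + h0|) hn1abs (abs_nonneg _) (abs_nonneg _)
        rwa [mul_one] at this
      have := abs_add_le ((S + s0) * n2) ((H + h0) * n1)
      linarith
    have bim : |((f n).im : ℝ)| ≤ R := by
      rw [him]
      have e1 : |-(S + s0) * n1| ≤ |S + s0| := by
        rw [abs_mul, abs_neg]
        have := mul_le_mul (le_refl |S + s0|) hn1abs (abs_nonneg _) (abs_nonneg _)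
        rwa [mul_one] at this
      have e2 : |(H + h0) * n2| ≤ |H + h0| := by
        rw [abs_mul]
        have := mul_le_mul (le_refl |H + h0|) hn2abs (abs_nonneg _) (abs_nonneg _)
        rwa [mul_one] at this
      have := abs_add_le (-(S + s0) * n1) ((H + h0) * n2)
      linarith
    have bre' : |(f n).re| ≤ (R : ℤ) := by exact_mod_cast bre
    have bim' : |(f n).im| ≤ (R : ℤ) := by exact_mod_cast bim
    simp only [Set.mem_ofPred_eq, Set.mem_prod, Set.mem_Icc]
    exact ⟨abs_le.1 bre', abs_le.1 bim'⟩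
  exact (Set.infinite_range_of_injective hinj) (hfin.subset hsub)

end Vale.Agent.Lib.P015
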