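import Mathlib
import Vale.Agent.Lib.P015.Strip

namespace Vale.Agent.Lib.P015

theorem toComplex_re' (z : GaussianInt) : (GaussianInt.toComplex z).re = (z.re : ℝ) :=
  (GaussianInt.intCast_re z).symm

theorem toComplex_im' (z : GaussianInt) : (GaussianInt.toComplex z).im = (z.im : ℝ) :=
  (GaussianInt.intCast_im z).symm

theorem abs_form_le (x y n1 n2 : ℝ) (hn : n1 ^ 2 + n2 ^ 2 = 1) (L : ℝ) (hL : 0 ≤ L)
    (h : x ^ 2 + y ^ 2 ≤ L ^ 2) : |x * n1 + y * n2| ≤ L := by
  apply abs_le_of_sq_le_sq _ hL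
  nlinarith [sq_nonneg (x * n2 - y * n1)]

theorem abs_form_le' (x y n1 n2 : ℝ) (hn : n1 ^ 2 + n2 ^ 2 = 1) (L : ℝ) (hL : 0 ≤ L)
    (h : x ^ 2 + y ^ 2 ≤ L ^ 2) : |x * n2 - y * n1| ≤ L := by
  apply abs_le_of_sq_le_sq _ hL
  nlinarith [sq_nonneg (x * n1 + y * n2)]

theorem re_sq_add_im_sq_le (ξ : ℂ) (L : ℝ) (h : ‖ξ‖ ≤ L) : ξ.re ^ 2 + ξ.im ^ 2 ≤ L ^ 2 := by
  have h1 : ‖ξ‖ ^ 2 = ξ.re ^ 2 + ξ.im ^ 2 := by
    rw [Complex.sq_norm, Complex.normSq_apply]
    ring
  rw [← h1]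
  exact pow_le_pow_left₀ (norm_nonneg _) h 2

/-- No infinite walk on distinct Gaussian primes with bounded steps stays within bounded
distance of a line, for a nonzero direction `w`. -/
theorem no_walk_near_line_aux (z₀ w : ℂ) (hw : w ≠ 0) (K D : ℝ) (f : ℕ → GaussianInt)
    (hinj : Function.Injective f) (hprime : ∀ n, Prime (f n))
    (hstep : ∀ n, ‖GaussianInt.toComplex (f (n + 1)) - GaussianInt.toComplex (f n)‖ ≤ D)
    (hstrip : ∀ n, ∃ t : ℝ, ‖GaussianInt.toComplex (f n) - (z₀ + (t : ℂ) * w)‖ ≤ K) :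
    False := by
  have hr : 0 < ‖w‖ := norm_pos_iff.2 hw
  have hr2 : ‖w‖ ^ 2 = w.re ^ 2 + w.im ^ 2 := by
    rw [Complex.sq_norm, Complex.normSq_apply]
    ring
  set n1 : ℝ := -w.im / ‖w‖ with hn1
  set n2 : ℝ := w.re / ‖w‖ with hn2
  have hn : n1 ^ 2 + n2 ^ 2 = 1 := by
    rw [hn1, hn2, div_pow, div_pow, ← add_div, neg_sq, add_comm, ← hr2]
    exact div_self (pow_ne_zero 2 hr.ne')
  have hperp : w.re * n1 + w.im * n2 = 0 := by
    rw [hn1, hn2]
    field_simp
    ring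
  have hK : 0 ≤ K := by
    obtain ⟨t, ht⟩ := hstrip 0
    exact (norm_nonneg _).trans ht
  have hD : 0 ≤ D := (norm_nonneg _).trans (hstep 0)
  refine core n1 n2 hn (z₀.re * n1 + z₀.im * n2) (z₀.re * n2 - z₀.im * n1) K D f hprime
    ?_ ?_ hinj
  · intro n
    obtain ⟨t, ht⟩ := hstrip n
    have h1 := re_sq_add_im_sq_le _ K ht
    have h2 := abs_form_le _ _ n1 n2 hn K hK h1
    have h3 : ((f n).re : ℝ) * n1 + ((f n).im : ℝ) * n2 - (z₀.re * n1 + z₀.im * n2)
        = (GaussianInt.toComplex (f n) - (z₀ + (t : ℂ) * w)).re * n1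
          + (GaussianInt.toComplex (f n) - (z₀ + (t : ℂ) * w)).im * n2 := by
      simp only [Complex.sub_re, Complex.sub_im, Complex.add_re, Complex.add_im,
        Complex.mul_re, Complex.mul_im, Complex.ofReal_re, Complex.ofReal_im,
        toComplex_re', toComplex_im']
      linear_combination t * hperp
    rw [h3]
    exact h2
  · intro n
    have h1 := re_sq_add_im_sq_le _ D (hstep n)
    have h2 := abs_form_le' _ _ n1 n2 hn D hD h1
    have h3 : (((f (n + 1)).re : ℝ) * n2 - ((f (n + 1)).im : ℝ) * n1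
          - (z₀.re * n2 - z₀.im * n1))
        - (((f n).re : ℝ) * n2 - ((f n).im : ℝ) * n1 - (z₀.re * n2 - z₀.im * n1))
        = (GaussianInt.toComplex (f (n + 1)) - GaussianInt.toComplex (f n)).re * n2
          - (GaussianInt.toComplex (f (n + 1)) - GaussianInt.toComplex (f n)).im * n1 := by
      simp only [Complex.sub_re, Complex.sub_im, toComplex_re', toComplex_im']
      ring
    rw [h3]
    exact h2

/-- No infinite walk on distinct Gaussian primes with bounded steps stays within bounded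
distance of a line. -/
theorem no_walk_near_line (z₀ w : ℂ) (K D : ℝ) :
    ¬ ∃ f : ℕ → GaussianInt, Function.Injective f ∧ (∀ n, Irreducible (f n)) ∧
      (∀ n, ‖GaussianInt.toComplex (f (n + 1)) - GaussianInt.toComplex (f n)‖ ≤ D) ∧
      (∀ n, ∃ t : ℝ, ‖GaussianInt.toComplex (f n) - (z₀ + (t : ℂ) * w)‖ ≤ K) := by
  rintro ⟨f, hinj, hirr, hstep, hstrip⟩
  have hprime : ∀ n, Prime (f n) := fun n => (hirr n).prime
  by_cases hw : w = 0
  · refine no_walk_near_line_aux z₀ 1 one_ne_zero K D f hinj hprime hstep ?_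
    intro n
    obtain ⟨t, ht⟩ := hstrip n
    refine ⟨0, ?_⟩
    rw [hw] at ht
    simpa using ht
  · exact no_walk_near_line_aux z₀ w hw K D f hinj hprime hstep hstrip

end Vale.Agent.Lib.P015
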