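import Mathlib
import Vale.Agent.Lib.P015.StripComplex

namespace Vale.Agent.Lib.P015

theorem abs_coord_le (X Y R e : ℝ) (N : ℕ) (hR : 0 ≤ R) (h1 : X ^ 2 + Y ^ 2 ≤ R ^ 2)
    (he : |e| ≤ 1) (hN : R + 1 < N) : |X - e| ≤ N := by
  have e2 : |X| ≤ R := by
    apply abs_le_of_sq_le_sq _ hR
    exact le_trans (le_add_of_nonneg_right (sq_nonneg Y)) h1
  calc |X - e| ≤ |X| + |e| := abs_sub _ _
    _ ≤ R + 1 := add_le_add e2 he
    _ ≤ N := hN.le

/-- On every line of the complex plane, arbitrarily far along it, there are points whose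
closed disk of any prescribed radius contains no Gaussian prime. -/
theorem exists_prime_free_disk (z₀ w : ℂ) (hw : w ≠ 0) (R T : ℝ) :
    ∃ t : ℝ, T ≤ t ∧ ∀ z : GaussianInt,
      ‖GaussianInt.toComplex z - (z₀ + (t : ℂ) * w)‖ ≤ R → ¬ Irreducible z := by
  have hr : 0 < ‖w‖ := norm_pos_iff.2 hw
  have hr2 : ‖w‖ ^ 2 = w.re ^ 2 + w.im ^ 2 := by
    rw [Complex.sq_norm, Complex.normSq_apply]
    ring
  obtain ⟨n1, hn1⟩ : ∃ n1 : ℝ, n1 = -w.im / ‖w‖ := ⟨_, rfl⟩
  obtain ⟨n2, hn2⟩ : ∃ n2 : ℝ, n2 = w.re / ‖w‖ := ⟨_, rfl⟩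
  have hn : n1 ^ 2 + n2 ^ 2 = 1 := by
    rw [hn1, hn2, div_pow, div_pow, ← add_div, neg_sq, add_comm, ← hr2]
    exact div_self (pow_ne_zero 2 hr.ne')
  have hn1abs : |n1| ≤ 1 := by
    rw [abs_le]
    constructor <;> nlinarith [sq_nonneg n2]
  have hn2abs : |n2| ≤ 1 := by
    rw [abs_le]
    constructor <;> nlinarith [sq_nonneg n1]
  obtain ⟨N, hN⟩ := exists_nat_gt (|R| + 1)
  obtain ⟨a, b, hab1, hab2, hab3⟩ := exists_block n1 n2 hn (z₀.re * n1 + z₀.im * n2)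
    (z₀.re * n2 - z₀.im * n1) (T * ‖w‖) N
  obtain ⟨s, hs⟩ : ∃ s : ℝ, s = (a : ℝ) * n2 - b * n1 - (z₀.re * n2 - z₀.im * n1) := ⟨_, rfl⟩
  obtain ⟨h, hh⟩ : ∃ h : ℝ, h = (a : ℝ) * n1 + b * n2 - (z₀.re * n1 + z₀.im * n2) := ⟨_, rfl⟩
  rw [← hs] at hab2
  rw [← hh] at hab1
  refine ⟨s / ‖w‖, ?_, ?_⟩
  · rw [le_div_iff₀ hr]
    exact hab2
  · intro z hz hirr
    have hR : 0 ≤ R := (norm_nonneg _).trans hz
    have hN' : R + 1 < N := by
      have := le_abs_self R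
      linarith
    have h1 := re_sq_add_im_sq_le _ R hz
    have hpre : (z₀ + ((s / ‖w‖ : ℝ) : ℂ) * w).re = (a : ℝ) - n1 * h := by
      simp only [Complex.add_re, Complex.mul_re, Complex.ofReal_re, Complex.ofReal_im]
      have e1 : s / ‖w‖ * w.re - 0 * w.im = s * n2 := by
        rw [hn2]; ring
      rw [e1, hs, hh]
      linear_combination ((a : ℝ) - z₀.re) * hn
    have hpim : (z₀ + ((s / ‖w‖ : ℝ) : ℂ) * w).im = (b : ℝ) - n2 * h := by
      simp only [Complex.add_im, Complex.mul_im, Complex.ofReal_re, Complex.ofReal_im]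
      have e1 : s / ‖w‖ * w.im + 0 * w.re = -(s * n1) := by
        rw [hn1]; ring
      rw [e1, hs, hh]
      linear_combination ((b : ℝ) - z₀.im) * hn
    rw [Complex.sub_re, Complex.sub_im, toComplex_re', toComplex_im', hpre, hpim] at h1
    have e3 : |n1 * h| ≤ 1 := by
      rw [abs_mul]
      have := mul_le_mul hn1abs hab1 (abs_nonneg _) zero_le_one
      rwa [mul_one] at this
    have e4 : |n2 * h| ≤ 1 := by
      rw [abs_mul]
      have := mul_le_mul hn2abs hab1 (abs_nonneg _) zero_le_one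
      rwa [mul_one] at this
    have hx : |((z.re : ℝ) - a)| ≤ N := by
      have e1 : ((z.re : ℝ) - a) = ((z.re : ℝ) - (a - n1 * h)) - n1 * h := by ring
      rw [e1]
      exact abs_coord_le _ _ R _ N hR h1 e3 hN'
    have hy : |((z.im : ℝ) - b)| ≤ N := by
      have e1 : ((z.im : ℝ) - b) = ((z.im : ℝ) - (b - n2 * h)) - n2 * h := by ring
      rw [e1]
      have h1' : ((z.im : ℝ) - (b - n2 * h)) ^ 2 + ((z.re : ℝ) - (a - n1 * h)) ^ 2 ≤ R ^ 2 := by
        rw [add_comm]; exact h1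
      exact abs_coord_le _ _ R _ N hR h1' e4 hN'
    have hi : |z.re - a| ≤ (N : ℤ) := by
      have : |((z.re - a : ℤ) : ℝ)| ≤ ((N : ℤ) : ℝ) := by
        push_cast
        exact hx
      exact_mod_cast this
    have hj : |z.im - b| ≤ (N : ℤ) := by
      have : |((z.im - b : ℤ) : ℝ)| ≤ ((N : ℤ) : ℝ) := by
        push_cast
        exact hy
      exact_mod_cast this
    apply hab3 _ _ hi hj
    have hzz : (⟨a + (z.re - a), b + (z.im - b)⟩ : GaussianInt) = z := by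
      apply Zsqrtd.ext
      · simp
      · simp
    rw [hzz]
    exact hirr.prime

end Vale.Agent.Lib.P015
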