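import Mathlib

namespace Vale.Agent.Lib.P015

/-- The wall modulus: the product of the norms `a ^ 2 + b ^ 2` over `2 ≤ a ≤ m + 2`,
`0 ≤ b ≤ K`. -/
def wallMod (m K : ℕ) : ℕ :=
  ∏ a ∈ Finset.Icc 2 (m + 2), ∏ b ∈ Finset.Icc 0 K, (a ^ 2 + b ^ 2)

theorem wallMod_pos (m K : ℕ) : 0 < wallMod m K := by
  unfold wallMod
  apply Finset.prod_pos
  intro a ha
  apply Finset.prod_pos
  intro b _
  have : 2 ≤ a := (Finset.mem_Icc.1 ha).1
  positivity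

theorem dvd_wallMod (m K a b : ℕ) (ha2 : 2 ≤ a) (ham : a ≤ m + 2) (hb : b ≤ K) :
    a ^ 2 + b ^ 2 ∣ wallMod m K := by
  unfold wallMod
  have h1 : (∏ b ∈ Finset.Icc 0 K, (a ^ 2 + b ^ 2)) ∣
      ∏ a ∈ Finset.Icc 2 (m + 2), ∏ b ∈ Finset.Icc 0 K, (a ^ 2 + b ^ 2) :=
    Finset.dvd_prod_of_mem (fun a => ∏ b ∈ Finset.Icc 0 K, (a ^ 2 + b ^ 2))
      (Finset.mem_Icc.2 ⟨ha2, ham⟩)
  have h2 : a ^ 2 + b ^ 2 ∣ ∏ b ∈ Finset.Icc 0 K, (a ^ 2 + b ^ 2) :=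
    Finset.dvd_prod_of_mem (fun b => a ^ 2 + b ^ 2) (Finset.mem_Icc.2 ⟨Nat.zero_le _, hb⟩)
  exact h2.trans h1

theorem norm_mk' (A B : ℤ) : (⟨A, B⟩ : GaussianInt).norm = A ^ 2 + B ^ 2 := by
  rw [Zsqrtd.norm_def]
  ring

theorem not_isUnit_of_two_le_re (A B : ℤ) (hA : 2 ≤ A) : ¬ IsUnit (⟨A, B⟩ : GaussianInt) := by
  rw [← Zsqrtd.norm_eq_one_iff, norm_mk']
  intro h
  have h1 : (4 : ℤ) ≤ A ^ 2 + B ^ 2 := by nlinarith [sq_nonneg B]
  omega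

/-- Every Gaussian integer `N + a + b i` with `N` a positive multiple of the wall modulus,
`2 ≤ a ≤ m + 2` and `|b| ≤ K` is reducible. -/
theorem not_irreducible_wall (m K : ℕ) (N : ℤ) (hN : 0 < N) (hdvd : (wallMod m K : ℤ) ∣ N)
    (a b : ℤ) (ha2 : 2 ≤ a) (ham : a ≤ m + 2) (hb : |b| ≤ K) :
    ¬ Irreducible (⟨N + a, b⟩ : GaussianInt) := by
  have hn : a ^ 2 + b ^ 2 ∣ N := by
    have hbn : (b.natAbs : ℤ) = |b| := Int.natCast_natAbs b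
    have h1 := dvd_wallMod m K a.toNat b.natAbs (by omega) (by omega) (by omega)
    have h2 : ((a.toNat ^ 2 + b.natAbs ^ 2 : ℕ) : ℤ) ∣ (wallMod m K : ℤ) :=
      Int.natCast_dvd_natCast.2 h1
    have h3 : ((a.toNat ^ 2 + b.natAbs ^ 2 : ℕ) : ℤ) = a ^ 2 + b ^ 2 := by
      push_cast
      rw [Int.toNat_of_nonneg (by omega), sq_abs]
    rw [h3] at h2
    exact h2.trans hdvd
  obtain ⟨q, hq⟩ := hn
  have hnpos : 0 < a ^ 2 + b ^ 2 := by nlinarith [sq_nonneg b]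
  have hqpos : 0 < q := by
    by_contra hcon
    have : q ≤ 0 := not_lt.1 hcon
    nlinarith
  have hfac : (⟨N + a, b⟩ : GaussianInt) = ⟨a, b⟩ * ⟨q * a + 1, -(q * b)⟩ := by
    apply Zsqrtd.ext
    · simp only [Zsqrtd.re_mul]
      rw [hq]; ring
    · simp only [Zsqrtd.im_mul]
      ring
  intro hirr
  rw [hfac] at hirr
  rcases hirr.isUnit_or_isUnit rfl with h | h
  · exact not_isUnit_of_two_le_re a b ha2 h
  · exact not_isUnit_of_two_le_re (q * a + 1) (-(q * b)) (by nlinarith) h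

/-- The mirror image of the wall on the negative real axis. -/
theorem not_irreducible_wall_neg (m K : ℕ) (N : ℤ) (hN : 0 < N)
    (hdvd : (wallMod m K : ℤ) ∣ N)
    (a b : ℤ) (ha2 : 2 ≤ a) (ham : a ≤ m + 2) (hb : |b| ≤ K) :
    ¬ Irreducible (⟨-(N + a), b⟩ : GaussianInt) := by
  have h := not_irreducible_wall m K N hN hdvd a (-b) ha2 ham (by rwa [abs_neg])
  intro hirr
  apply h
  have : (⟨N + a, -b⟩ : GaussianInt) = -⟨-(N + a), b⟩ := by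
    apply Zsqrtd.ext <;> simp
  rw [this]
  exact (Associated.irreducible_iff ⟨-1, by simp⟩).1 hirr

end Vale.Agent.Lib.P015
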