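import Mathlib
import Vale.Agent.Lib.P015.Wall

namespace Vale.Agent.Lib.P015

open Asymptotics

theorem wallMod_ge (m K : ℕ) : 4 ^ (K + 1) ≤ wallMod m K := by
  unfold wallMod
  have hin : ∀ a ∈ Finset.Icc 2 (m + 2), 4 ^ (K + 1) ≤ ∏ b ∈ Finset.Icc 0 K, (a ^ 2 + b ^ 2) := by
    intro a ha
    have ha2 : 2 ≤ a := (Finset.mem_Icc.1 ha).1
    have h1 : ∏ _b ∈ Finset.Icc 0 K, (4 : ℕ) ≤ ∏ b ∈ Finset.Icc 0 K, (a ^ 2 + b ^ 2) := by
      apply Finset.prod_le_prod
      · intro i _; exact Nat.zero_le _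
      · intro i _; nlinarith [Nat.zero_le (i ^ 2)]
    simpa using h1
  have h2 : ∏ _a ∈ Finset.Icc 2 (m + 2), (4 : ℕ) ^ (K + 1) ≤
      ∏ a ∈ Finset.Icc 2 (m + 2), ∏ b ∈ Finset.Icc 0 K, (a ^ 2 + b ^ 2) := by
    apply Finset.prod_le_prod
    · intro i _; exact Nat.zero_le _
    · exact hin
  have h3 : ∏ _a ∈ Finset.Icc 2 (m + 2), (4 : ℕ) ^ (K + 1) = (4 ^ (K + 1)) ^ (m + 1) := by
    simp
  rw [h3] at h2
  have h4 : (4 : ℕ) ^ (K + 1) ≤ (4 ^ (K + 1)) ^ (m + 1) := by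
    calc (4 : ℕ) ^ (K + 1) = (4 ^ (K + 1)) ^ 1 := (pow_one _).symm
      _ ≤ (4 ^ (K + 1)) ^ (m + 1) := Nat.pow_le_pow_right (by positivity) (by omega)
  exact h4.trans h2

theorem wallMod_le (m K : ℕ) (hK : m + 2 ≤ K) :
    wallMod m K ≤ (2 * K ^ 2) ^ ((m + 1) * (K + 1)) := by
  unfold wallMod
  have hin : ∀ a ∈ Finset.Icc 2 (m + 2),
      ∏ b ∈ Finset.Icc 0 K, (a ^ 2 + b ^ 2) ≤ (2 * K ^ 2) ^ (K + 1) := by
    intro a ha
    have ha2 : a ≤ m + 2 := (Finset.mem_Icc.1 ha).2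
    have h1 : ∏ b ∈ Finset.Icc 0 K, (a ^ 2 + b ^ 2) ≤ ∏ _b ∈ Finset.Icc 0 K, (2 * K ^ 2) := by
      apply Finset.prod_le_prod
      · intro i _; exact Nat.zero_le _
      · intro i hi
        have hi2 : i ≤ K := (Finset.mem_Icc.1 hi).2
        have haK : a ≤ K := ha2.trans hK
        nlinarith [Nat.zero_le a, Nat.zero_le i]
    simpa using h1
  have h2 : ∏ a ∈ Finset.Icc 2 (m + 2), ∏ b ∈ Finset.Icc 0 K, (a ^ 2 + b ^ 2) ≤
      ∏ _a ∈ Finset.Icc 2 (m + 2), (2 * K ^ 2) ^ (K + 1) := by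
    apply Finset.prod_le_prod
    · intro i _; exact Nat.zero_le _
    · exact hin
  have h3 : ∏ _a ∈ Finset.Icc 2 (m + 2), (2 * K ^ 2) ^ (K + 1)
      = (2 * K ^ 2) ^ ((m + 1) * (K + 1)) := by
    simp [← pow_mul, mul_comm]
  rw [h3] at h2
  exact h2

/-- The real estimate: on the horizontal range of the wall the width function is at most
`K`. -/
theorem width_le_of_wall (h : ℝ → ℝ) (m K : ℕ) (hK : m + 3 ≤ K) (x : ℝ)
    (hx1 : (wallMod m K : ℝ) + 2 ≤ x) (hx2 : x ≤ (wallMod m K : ℝ) + m + 2)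
    (hh : h x * Real.log (Real.log x) ≤ 1 / (7 * ((m : ℝ) + 1)) * Real.log x) :
    h x ≤ K := by
  set P : ℕ := wallMod m K with hP
  have hK3 : (3 : ℝ) ≤ K := by
    have : 3 ≤ K := by omega
    exact_mod_cast this
  have hKpos : (0 : ℝ) < K := by linarith
  have hm0 : (0 : ℝ) ≤ m := Nat.cast_nonneg m
  -- lower bound on P
  have hP4 : (4 : ℝ) ^ (K + 1) ≤ P := by
    have := wallMod_ge m K
    exact_mod_cast this
  have hexpK : Real.exp K ≤ (4 : ℝ) ^ (K + 1) := by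
    have h1 : Real.exp (K : ℝ) = Real.exp 1 ^ K := by
      rw [← Real.exp_nat_mul, mul_one]
    rw [h1]
    have h2 : Real.exp 1 ≤ 4 := by
      have := Real.exp_one_lt_d9
      linarith
    calc Real.exp 1 ^ K ≤ (4 : ℝ) ^ K := pow_le_pow_left₀ (Real.exp_pos 1).le h2 K
      _ ≤ (4 : ℝ) ^ (K + 1) := pow_le_pow_right₀ (by norm_num) (by omega)
  have hxpos : 0 < x := by
    have : (0 : ℝ) < (4 : ℝ) ^ (K + 1) := by positivity
    linarith
  have hlogx_ge : (K : ℝ) ≤ Real.log x := by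
    rw [Real.le_log_iff_exp_le hxpos]
    linarith
  have hloglog : Real.log K ≤ Real.log (Real.log x) :=
    Real.log_le_log hKpos hlogx_ge
  have hlog3 : (1 : ℝ) ≤ Real.log 3 := by
    rw [Real.le_log_iff_exp_le (by norm_num)]
    have := Real.exp_one_lt_d9
    linarith
  have hlogK1 : (1 : ℝ) ≤ Real.log K := hlog3.trans (Real.log_le_log (by norm_num) hK3)
  have hlog2K : Real.log 2 ≤ Real.log K := Real.log_le_log (by norm_num) (by linarith)
  -- upper bound on P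
  have hPle : (P : ℝ) ≤ (2 * (K : ℝ) ^ 2) ^ ((m + 1) * (K + 1)) := by
    have := wallMod_le m K (by omega)
    exact_mod_cast this
  have hPpos : (0 : ℝ) < P := by
    have := wallMod_pos m K
    exact_mod_cast this
  have hPm : (m : ℝ) + 2 ≤ P := by
    have h1 : K + 1 < 4 ^ (K + 1) := by
      have := Nat.lt_pow_self (show 1 < 4 by norm_num) (n := K + 1)
      exact this
    have h2 : (m : ℝ) + 2 ≤ ((K + 1 : ℕ) : ℝ) := by
      have : m + 2 ≤ K + 1 := by omega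
      exact_mod_cast this
    have h3 : ((K + 1 : ℕ) : ℝ) ≤ (4 : ℝ) ^ (K + 1) := by
      exact_mod_cast h1.le
    linarith
  have hx2P : x ≤ 2 * P := by linarith
  have hlogP : Real.log P ≤ ((m + 1) * (K + 1) : ℕ) * Real.log (2 * (K : ℝ) ^ 2) := by
    have := Real.log_le_log hPpos hPle
    rwa [Real.log_pow] at this
  have hlog2K2 : Real.log (2 * (K : ℝ) ^ 2) ≤ 3 * Real.log K := by
    rw [Real.log_mul (by norm_num) (by positivity), Real.log_pow]
    push_cast
    linarith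
  have hcnt : (((m + 1) * (K + 1) : ℕ) : ℝ) ≤ ((m : ℝ) + 1) * (2 * K) := by
    push_cast
    have : (K : ℝ) + 1 ≤ 2 * K := by linarith
    exact mul_le_mul_of_nonneg_left this (by linarith)
  have hlogK0 : (0 : ℝ) ≤ Real.log K := by linarith
  have hlogP2 : Real.log P ≤ 6 * ((m : ℝ) + 1) * K * Real.log K := by
    have h1 : (((m + 1) * (K + 1) : ℕ) : ℝ) * Real.log (2 * (K : ℝ) ^ 2)
        ≤ (((m : ℝ) + 1) * (2 * K)) * (3 * Real.log K) := by
      apply mul_le_mul hcnt hlog2K2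
      · apply Real.log_nonneg
        nlinarith
      · positivity
    calc Real.log P ≤ _ := hlogP
      _ ≤ (((m : ℝ) + 1) * (2 * K)) * (3 * Real.log K) := h1
      _ = 6 * ((m : ℝ) + 1) * K * Real.log K := by ring
  have hlogx_le : Real.log x ≤ 7 * ((m : ℝ) + 1) * K * Real.log K := by
    have h1 : Real.log x ≤ Real.log (2 * P) := Real.log_le_log hxpos hx2P
    rw [Real.log_mul (by norm_num) hPpos.ne'] at h1
    have h2 : Real.log 2 ≤ ((m : ℝ) + 1) * K * Real.log K := by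
      have h3 : (1 : ℝ) ≤ ((m : ℝ) + 1) * K * Real.log K := by
        have h4 : (1 : ℝ) ≤ ((m : ℝ) + 1) * K := by nlinarith
        nlinarith
      have h5 : Real.log 2 ≤ 1 := by
        have := Real.log_two_lt_d9
        linarith
      linarith
    linarith
  -- conclusion
  by_cases hneg : h x ≤ 0
  · linarith
  · have hpos : 0 < h x := not_le.1 hneg
    have h1 : h x * Real.log K ≤ h x * Real.log (Real.log x) :=
      mul_le_mul_of_nonneg_left hloglog hpos.le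
    have h2 : 1 / (7 * ((m : ℝ) + 1)) * Real.log x ≤ K * Real.log K := by
      have h7 : (0 : ℝ) < 7 * ((m : ℝ) + 1) := by positivity
      rw [div_mul_eq_mul_div, one_mul, div_le_iff₀ h7]
      calc Real.log x ≤ 7 * ((m : ℝ) + 1) * K * Real.log K := hlogx_le
        _ = K * Real.log K * (7 * ((m : ℝ) + 1)) := by ring
    have h3 : h x * Real.log K ≤ K * Real.log K := by linarith
    have hlogKpos : 0 < Real.log K := by linarith
    exact le_of_mul_le_mul_right h3 hlogKpos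

end Vale.Agent.Lib.P015
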