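import Mathlib
import Vale.Agent.Lib.P015.Widening

namespace Vale.Agent.Lib.P015

open Asymptotics

/-- A walk with steps at most `m` in the first coordinate cannot cross two barriers of
length `m + 1`. -/
theorem confined (x : ℕ → ℤ) (m : ℕ) (A : ℤ) (hstep : ∀ n, |x (n + 1) - x n| ≤ m)
    (hbar : ∀ n, ¬ (A + 2 ≤ x n ∧ x n ≤ A + m + 2))
    (hbar' : ∀ n, ¬ (A + 2 ≤ -x n ∧ -x n ≤ A + m + 2))
    (h0 : |x 0| < A + 2) : ∀ n, |x n| < A + 2 := by
  intro n
  induction n with
  | zero => exact h0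
  | succ n ih =>
    have h1 := abs_le.1 (hstep n)
    have h2 := abs_lt.1 ih
    have h3 := hbar (n + 1)
    have h4 := hbar' (n + 1)
    rw [abs_lt]
    constructor
    · by_contra hcon
      apply h4
      constructor <;> omega
    · by_contra hcon
      apply h3
      constructor <;> omega

/-- Core statement: no infinite walk on distinct Gaussian primes with steps at most `D` stays
in the region `|Im z| ≤ h |Re z|` when eventually
`h x * log (log x) ≤ log x / (7 (⌈D⌉₊ + 1))`. -/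
theorem no_walk_widening_core (h : ℝ → ℝ) (D : ℝ)
    (hh : ∀ᶠ x in Filter.atTop,
      h x * Real.log (Real.log x) ≤ 1 / (7 * ((⌈D⌉₊ : ℝ) + 1)) * Real.log x)
    (f : ℕ → GaussianInt) (hinj : Function.Injective f) (hirr : ∀ n, Irreducible (f n))
    (hstep : ∀ n, ‖GaussianInt.toComplex (f (n + 1)) - GaussianInt.toComplex (f n)‖ ≤ D)
    (hreg : ∀ n, |((f n).im : ℝ)| ≤ h |((f n).re : ℝ)|) : False := by
  set m : ℕ := ⌈D⌉₊ with hm
  have hstepZ : ∀ n, |(f (n + 1)).re - (f n).re| ≤ (m : ℤ) := by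
    intro n
    have h1 := Complex.abs_re_le_norm
      (GaussianInt.toComplex (f (n + 1)) - GaussianInt.toComplex (f n))
    rw [Complex.sub_re, ← GaussianInt.intCast_re, ← GaussianInt.intCast_re] at h1
    have h2 : |(((f (n + 1)).re : ℝ) - ((f n).re : ℝ))| ≤ (m : ℝ) :=
      h1.trans ((hstep n).trans (Nat.le_ceil D))
    exact_mod_cast h2
  obtain ⟨X, hX⟩ := Filter.eventually_atTop.1 hh
  obtain ⟨K, hK1, hK2, hK3⟩ : ∃ K : ℕ, m + 3 ≤ K ∧ X ≤ K ∧ |(f 0).re| ≤ (K : ℤ) := by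
    refine ⟨m + 3 + ⌈X⌉₊ + (f 0).re.natAbs, by omega, ?_, ?_⟩
    · push_cast
      have h1 := Nat.le_ceil X
      have h2 : (0 : ℝ) ≤ (m : ℝ) := Nat.cast_nonneg m
      have h3 : (0 : ℝ) ≤ |((f 0).re : ℝ)| := abs_nonneg _
      linarith
    · push_cast
      have h2 : (0 : ℤ) ≤ (m : ℤ) := Int.natCast_nonneg m
      have h3 : (0 : ℤ) ≤ (⌈X⌉₊ : ℤ) := Int.natCast_nonneg _
      linarith
  set P : ℕ := wallMod m K with hP
  have hP4 : 4 ^ (K + 1) ≤ P := wallMod_ge m K
  have hPpos : 0 < P := wallMod_pos m K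
  have hKP : K ≤ P := by
    have h1 : K + 1 < 4 ^ (K + 1) := Nat.lt_pow_self (show 1 < 4 by norm_num) (n := K + 1)
    omega
  have key : ∀ x : ℝ, (P : ℝ) + 2 ≤ x → x ≤ (P : ℝ) + m + 2 → h x ≤ K := by
    intro x hx1 hx2
    have hKPr : (K : ℝ) ≤ P := by exact_mod_cast hKP
    have hxX : X ≤ x := by linarith
    exact width_le_of_wall h m K hK1 x hx1 hx2 (hX x hxX)
  have hbar : ∀ n, ¬ ((P : ℤ) + 2 ≤ (f n).re ∧ (f n).re ≤ (P : ℤ) + m + 2) := by
    rintro n ⟨h1, h2⟩
    have hx0 : (0 : ℝ) ≤ ((f n).re : ℝ) := by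
      have : (0 : ℤ) ≤ (f n).re := by omega
      exact_mod_cast this
    have hy := hreg n
    rw [abs_of_nonneg hx0] at hy
    have hk := key ((f n).re) (by exact_mod_cast h1) (by exact_mod_cast h2)
    have hyK : |(f n).im| ≤ (K : ℤ) := by exact_mod_cast hy.trans hk
    have hw := not_irreducible_wall m K P (by exact_mod_cast hPpos) (dvd_refl _)
      ((f n).re - P) (f n).im (by omega) (by omega) hyK
    apply hw
    have : (⟨(P : ℤ) + ((f n).re - P), (f n).im⟩ : GaussianInt) = f n := by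
      apply Zsqrtd.ext <;> simp
    rw [this]
    exact hirr n
  have hbar' : ∀ n, ¬ ((P : ℤ) + 2 ≤ -(f n).re ∧ -(f n).re ≤ (P : ℤ) + m + 2) := by
    rintro n ⟨h1, h2⟩
    have hx0 : ((f n).re : ℝ) ≤ 0 := by
      have : (f n).re ≤ 0 := by omega
      exact_mod_cast this
    have hy := hreg n
    rw [abs_of_nonpos hx0] at hy
    have hk := key (-((f n).re : ℝ)) (by exact_mod_cast h1) (by exact_mod_cast h2)
    have hyK : |(f n).im| ≤ (K : ℤ) := by exact_mod_cast hy.trans hk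
    have hw := not_irreducible_wall_neg m K P (by exact_mod_cast hPpos) (dvd_refl _)
      (-(f n).re - P) (f n).im (by omega) (by omega) hyK
    apply hw
    have : (⟨-((P : ℤ) + (-(f n).re - P)), (f n).im⟩ : GaussianInt) = f n := by
      apply Zsqrtd.ext <;> simp
    rw [this]
    exact hirr n
  have hconf : ∀ n, |(f n).re| < (P : ℤ) + 2 :=
    confined (fun n => (f n).re) m P hstepZ hbar hbar' (by
      have : (K : ℤ) ≤ P := by exact_mod_cast hKP
      show |(f 0).re| < (P : ℤ) + 2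
      omega)
  -- the second coordinate is bounded as well
  obtain ⟨B, hB⟩ := ((Finset.range (P + 2)).image fun j : ℕ => h (j : ℝ)).exists_le
  have hy : ∀ n, |((f n).im : ℝ)| ≤ B := by
    intro n
    have h1 := hconf n
    have h2 : h ((|(f n).re|.toNat : ℕ) : ℝ) ≤ B := by
      apply hB
      apply Finset.mem_image_of_mem
      rw [Finset.mem_range]
      have := abs_nonneg (f n).re
      omega
    have h3 : ((|(f n).re|.toNat : ℕ) : ℝ) = |((f n).re : ℝ)| := by
      have h4 : ((|(f n).re|.toNat : ℕ) : ℤ) = |(f n).re| :=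
        Int.toNat_of_nonneg (abs_nonneg _)
      have h5 : (((|(f n).re|.toNat : ℕ) : ℤ) : ℝ) = ((|(f n).re| : ℤ) : ℝ) := by rw [h4]
      push_cast at h5
      exact h5
    rw [h3] at h2
    exact (hreg n).trans h2
  set R : ℕ := P + 2 + ⌈B⌉₊ with hR
  have hfin : {z : GaussianInt | (z.re, z.im) ∈
      (Set.Icc (-(R : ℤ)) R) ×ˢ (Set.Icc (-(R : ℤ)) R)}.Finite := by
    apply Set.Finite.preimage
    · intro z _ z' _ hzz'
      simp only [Prod.mk.injEq] at hzz'
      exact Zsqrtd.ext hzz'.1 hzz'.2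
    · exact (Set.finite_Icc _ _).prod (Set.finite_Icc _ _)
  have hsub : Set.range f ⊆ {z : GaussianInt | (z.re, z.im) ∈
      (Set.Icc (-(R : ℤ)) R) ×ˢ (Set.Icc (-(R : ℤ)) R)} := by
    rintro z ⟨n, rfl⟩
    have bre : |(f n).re| ≤ (R : ℤ) := by
      have := hconf n
      rw [hR]
      push_cast
      have h3 : (0 : ℤ) ≤ (⌈B⌉₊ : ℤ) := Int.natCast_nonneg _
      omega
    have bim : |(f n).im| ≤ (R : ℤ) := by
      have h1 : |((f n).im : ℝ)| ≤ (R : ℝ) := by
        have h2 := Nat.le_ceil B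
        rw [hR]
        push_cast
        have h3 : (0 : ℝ) ≤ (P : ℝ) := Nat.cast_nonneg P
        linarith [hy n]
      exact_mod_cast h1
    simp only [Set.mem_ofPred_eq, Set.mem_prod, Set.mem_Icc]
    exact ⟨abs_le.1 bre, abs_le.1 bim⟩
  exact (Set.infinite_range_of_injective hinj) (hfin.subset hsub)

/-- No infinite walk on distinct Gaussian primes with bounded steps stays in the region
`|Im z| ≤ h |Re z|` when `h x * log (log x) = o(log x)`. -/
theorem no_walk_widening (h : ℝ → ℝ)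
    (hh : (fun x => h x * Real.log (Real.log x)) =o[Filter.atTop] Real.log) (D : ℝ) :
    ¬ ∃ f : ℕ → GaussianInt, Function.Injective f ∧ (∀ n, Irreducible (f n)) ∧
      (∀ n, ‖GaussianInt.toComplex (f (n + 1)) - GaussianInt.toComplex (f n)‖ ≤ D) ∧
      (∀ n, |((f n).im : ℝ)| ≤ h |((f n).re : ℝ)|) := by
  rintro ⟨f, hinj, hirr, hstep, hreg⟩
  have hε : (0 : ℝ) < 1 / (7 * ((⌈D⌉₊ : ℝ) + 1)) := by positivity
  have h1 := hh.def hε
  have h2 : ∀ᶠ x in Filter.atTop,
      h x * Real.log (Real.log x) ≤ 1 / (7 * ((⌈D⌉₊ : ℝ) + 1)) * Real.log x := by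
    filter_upwards [h1, Filter.eventually_ge_atTop (1 : ℝ)] with x hx hx1
    have hlogx : 0 ≤ Real.log x := Real.log_nonneg hx1
    rw [Real.norm_eq_abs, Real.norm_eq_abs, abs_of_nonneg hlogx] at hx
    exact (le_abs_self _).trans hx
  exact no_walk_widening_core h D h2 f hinj hirr hstep hreg

/-- Explicit rate: no infinite walk on distinct Gaussian primes with steps at most `D` stays
in the region `|Im z| ≤ h |Re z|` when eventually
`h x * log (log x) ≤ log x / (7 (D + 2))`. -/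
theorem no_walk_widening_explicit (h : ℝ → ℝ) (D : ℝ) (hD : 0 ≤ D)
    (hh : ∀ᶠ x in Filter.atTop,
      h x * Real.log (Real.log x) ≤ Real.log x / (7 * (D + 2))) :
    ¬ ∃ f : ℕ → GaussianInt, Function.Injective f ∧ (∀ n, Irreducible (f n)) ∧
      (∀ n, ‖GaussianInt.toComplex (f (n + 1)) - GaussianInt.toComplex (f n)‖ ≤ D) ∧
      (∀ n, |((f n).im : ℝ)| ≤ h |((f n).re : ℝ)|) := by
  rintro ⟨f, hinj, hirr, hstep, hreg⟩
  have h2 : ∀ᶠ x in Filter.atTop,
      h x * Real.log (Real.log x) ≤ 1 / (7 * ((⌈D⌉₊ : ℝ) + 1)) * Real.log x := by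
    filter_upwards [hh, Filter.eventually_ge_atTop (1 : ℝ)] with x hx hx1
    have hlogx : 0 ≤ Real.log x := Real.log_nonneg hx1
    have hc : (⌈D⌉₊ : ℝ) < D + 1 := Nat.ceil_lt_add_one hD
    have hc0 : (0 : ℝ) ≤ (⌈D⌉₊ : ℝ) := Nat.cast_nonneg _
    have h3 : Real.log x / (7 * (D + 2)) ≤ 1 / (7 * ((⌈D⌉₊ : ℝ) + 1)) * Real.log x := by
      rw [div_mul_eq_mul_div, one_mul]
      apply div_le_div_of_nonneg_left hlogx (by positivity) (by linarith)
    exact hx.trans h3
  exact no_walk_widening_core h D h2 f hinj hirr hstep hreg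

end Vale.Agent.Lib.P015
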