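import Mathlib
import Vale.Agent.Lib.P015.WideningMain

namespace Vale.Agent.Lib.P015

open Asymptotics

theorem logpow_isLittleO (θ : ℝ) (hθ0 : 0 ≤ θ) (hθ1 : θ < 1) :
    (fun x : ℝ => (Real.log (2 + x)) ^ θ * Real.log (Real.log x)) =o[Filter.atTop] Real.log := by
  have h1 : (fun x : ℝ => Real.log (Real.log x)) =o[Filter.atTop]
      (fun x : ℝ => (Real.log x) ^ (1 - θ)) :=
    (isLittleO_log_rpow_atTop (by linarith : (0 : ℝ) < 1 - θ)).comp_tendsto
      Real.tendsto_log_atTop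
  have h2 : (fun x : ℝ => (Real.log (2 + x)) ^ θ) =O[Filter.atTop]
      (fun x : ℝ => (Real.log x) ^ θ) := by
    apply IsBigO.of_bound ((2 : ℝ) ^ θ)
    filter_upwards [Filter.eventually_ge_atTop (2 : ℝ)] with x hx
    have hlogx : 0 ≤ Real.log x := Real.log_nonneg (by linarith)
    have hlog2x : 0 ≤ Real.log (2 + x) := Real.log_nonneg (by linarith)
    have hle : Real.log (2 + x) ≤ 2 * Real.log x := by
      have h3 : Real.log (2 + x) ≤ Real.log (x ^ 2) :=
        Real.log_le_log (by linarith) (by nlinarith)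
      rwa [Real.log_pow, Nat.cast_ofNat] at h3
    rw [Real.norm_eq_abs, Real.norm_eq_abs, abs_of_nonneg (Real.rpow_nonneg hlog2x θ),
      abs_of_nonneg (Real.rpow_nonneg hlogx θ), ← Real.mul_rpow (by norm_num) hlogx]
    exact Real.rpow_le_rpow hlog2x hle hθ0
  have h3 := h2.mul_isLittleO h1
  refine h3.congr' (Filter.EventuallyEq.refl _ _) ?_
  filter_upwards [Filter.eventually_gt_atTop (1 : ℝ)] with x hx
  have hlogx : 0 < Real.log x := Real.log_pos hx
  rw [← Real.rpow_add hlogx]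
  simp

/-- No infinite walk on distinct Gaussian primes with bounded steps stays in the region
`|Im z| ≤ (log (2 + |Re z|)) ^ θ`, for any exponent `0 ≤ θ < 1`. -/
theorem no_walk_logpow (θ : ℝ) (hθ0 : 0 ≤ θ) (hθ1 : θ < 1) (D : ℝ) :
    ¬ ∃ f : ℕ → GaussianInt, Function.Injective f ∧ (∀ n, Irreducible (f n)) ∧
      (∀ n, ‖GaussianInt.toComplex (f (n + 1)) - GaussianInt.toComplex (f n)‖ ≤ D) ∧
      (∀ n, |((f n).im : ℝ)| ≤ (Real.log (2 + |((f n).re : ℝ)|)) ^ θ) :=
  no_walk_widening (fun x => (Real.log (2 + x)) ^ θ) (logpow_isLittleO θ hθ0 hθ1) D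

end Vale.Agent.Lib.P015
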